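import Vale.Agent.P014U.X4S.G.Defs
import Vale.Agent.P004S.A.Loc

/-! # P014U: the cyclotomic character (helper42) -/

set_option linter.all false

noncomputable section

namespace Vale.Agent.P014U.X4S.Aq

open NumberField Topology
open Vale.Agent.P022 Vale.Agent.P022K
open Vale.Agent.P027M.S (Inert)
open Vale.Agent.P022E.GW (Ov Fb)
open Vale.Agent.P014U.X4S.Ga (K O mem_O)

export Vale.Agent.P004S.Aq (q_ne ov_not one_not em pl DD II FF Ok ex_ok DD_prime II_prime FF_prime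
  DD_closed DD_zero pl_mem nb frob0)

variable [Pp]

/-- the cyclotomic character -/
def cz : GQ →* ℤ_[pp]ˣ := (cyclotomicCharacter Qb pp).comp (MulSemiringAction.toRingAut GQ Qb)

/-- the cyclotomic character with values in the field -/
def cy : GQ →* K :=
  ((PadicInt.Coe.ringHom (p := pp)).toMonoidHom.comp (Units.coeHom ℤ_[pp])).comp cz

theorem cy_apply (g : GQ) : cy g = ((cz g : ℤ_[pp]) : K) := rfl

theorem pw_ne (n : ℕ) : NeZero ((pp ^ n : ℕ) : Qb) :=
  ⟨Nat.cast_ne_zero.2 (pow_ne_zero _ pp_ne)⟩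

theorem pw_pos (n : ℕ) : 0 < pp ^ n := pow_pos pp_pos n

theorem cz_spec (g : GQ) {n : ℕ} {t : Qb} (ht : t ^ pp ^ n = 1) :
    g t = t ^ ((cz g : ℤ_[pp]).toZModPow n).val :=
  haveI : ∀ i, HasEnoughRootsOfUnity Qb (pp ^ i) := fun i => by
    have := pw_ne i
    infer_instance
  cyclotomicCharacter.spec pp (MulSemiringAction.toRingAut GQ Qb g) t ht

theorem ex_prim (n : ℕ) : ∃ ζ : Qb, IsPrimitiveRoot ζ (pp ^ n) :=
  haveI := pw_ne n
  HasEnoughRootsOfUnity.exists_primitiveRoot Qb (pp ^ n)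

theorem cy_cont : Continuous cy :=
  have h : Continuous fun g => (cz g : ℤ_[pp]) :=
    Units.continuous_val.comp (cyclotomicCharacter.continuous pp ℚ Qb)
  continuous_subtype_val.comp h

theorem cy_norm (g : GQ) : ‖cy g‖ = 1 := PadicInt.norm_units (cz g)

/-- the cyclotomic character is unramified at the other primes -/
theorem cy_in {l : ℕ} {P : Ideal (𝓞 Qb)} (h : Ov l P) (hl : l ≠ pp) {g : GQ} (hg : Inert P g) :
    cy g = 1 := by
  have : (cz g : ℤ_[pp]) = 1 := by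
    rw [← PadicInt.ext_of_toZModPow]
    intro n
    obtain ⟨ζ, hζ⟩ := ex_prim n
    let z : 𝓞 Qb := ⟨ζ, hζ.isIntegral (pw_pos n)⟩
    have e : z ^ pp ^ n = 1 := RingOfIntegers.ext hζ.pow_eq_one
    have nm : ((pp ^ n : ℕ) : 𝓞 Qb) ∉ P := fun m => G2.p_notMem (p := pp) h hl
      (h.2.1.mem_of_pow_mem n (by exact_mod_cast m))
    have e2 : g ζ = ζ := congrArg Subtype.val (P022E.GW.Unr.root_inj h.2.1 nm
      (by rw [← smul_pow', e, smul_one]) e (hg z))
    have e4 := cz_spec g hζ.pow_eq_one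
    rw [e2] at e4
    rw [map_one, ← ZMod.natCast_zmod_val (PadicInt.toZModPow n _), ← Nat.cast_one,
      ZMod.natCast_eq_natCast_iff]
    have := (isOfFinOrder_iff_pow_eq_one.2 ⟨_, pw_pos n, hζ.pow_eq_one⟩).pow_eq_pow_iff_modEq.1
      (e4.symm.trans (pow_one ζ).symm)
    rwa [← hζ.eq_orderOf] at this
  rw [cy_apply, this, PadicInt.coe_one]

/-- the cyclotomic character modulo the prime -/
abbrev ω (g : GQ) : ZMod pp := G2.om pp (ZMod pp) g

theorem om_oz (g : GQ) : ω g = G2.oz pp g := by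
  rw [ω, G2.om, ZMod.castHom_self, RingHom.id_apply]

theorem cz_om (g : GQ) : PadicInt.toZMod (cz g : ℤ_[pp]) = ω g := by
  have e := cz_spec g (n := 1) (t := G2.zt pp) (by rw [pow_one, G2.zt_pow])
  have e2 := G2.pw_inj ((G2.oz_spec g).symm.trans (e.trans (G2.pw_nat _).symm))
  rw [om_oz, e2, ← sub_eq_zero, ← map_natCast (PadicInt.toZMod (p := pp)), ← map_sub,
    ← RingHom.mem_ker, PadicInt.ker_toZMod, PadicInt.maximalIdeal_eq_span_p, ← pow_one (pp : ℤ_[pp]),
    ← PadicInt.ker_toZModPow, RingHom.mem_ker]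
  simp

end Vale.Agent.P014U.X4S.Aq
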