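import Vale.Agent.P014U.Base
import Vale.Agent.P014U.G2.Dim
import Vale.Agent.P014U.G2.One
import Vale.Agent.P014U.G2.Gys
import Vale.Agent.P022K.G2.Unr
import Vale.Agent.P022K.G2.Tr

/-! # P014U: the arithmetic rows used by the local invariants (helper37) -/

set_option linter.all false

namespace Vale.Agent.P014U.X4S.Aq

open Vale.Agent.P022K

variable [Pp]

theorem rowH : P022K.G2.HASSE pp := P014U.G2.hasse pp_ne_two

theorem rowO : P022K.G2.ONE pp := P014U.G2.one pp_ne_two (P014U.G2.gys pp)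

theorem rowD : P022K.G2.DIMT pp :=
  P014U.G2.dimt (P014U.G2.nil pp_ne_two) (P014U.G2.dim1 (P014U.G2.nil pp_ne_two))

theorem rowU : P022K.G2.UNT pp := P022K.G2.unt pp P022K.G2.tr2 P022K.G2.pr0

end Vale.Agent.P014U.X4S.Aq
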