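import Vale.Agent.P014U.X4S.A.Div
import Vale.Agent.P014U.X4S.A.Row
import Vale.Agent.P004S.A.Coh

/-!
# P014U: Hilbert 90, induction on the exponent, local global principle, reciprocity (helper37)
-/

set_option linter.all false

noncomputable section

namespace Vale.Agent.P014U.X4S.Aq

open NumberField Topology Filter
open Vale.Agent.P022 Vale.Agent.P022K
open Vale.Agent.P027M.S (Inert)
open Vale.Agent.P022D.W (dec inP_le_dec)
open Vale.Agent.P022.H443 (inP)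
open Vale.Agent.P022E.GW (Ov Fb)
open Vale.Agent.P014U.X4S.Ga (K O mem_O Pl d2 d3 Z2 B2)
open scoped Pointwise

export Vale.Agent.P004S.Aq (ab_pl)

variable [Pp]

variable {D : Subgroup GQ} {z : GQ → GQ → K} {θ : GQ → K}

theorem pk_inv : (pp : K) * (pp : K)⁻¹ = 1 := mul_inv_cancel₀ pk_ne

/-- **Hilbert 90**: the cocycles are divisible -/
theorem div (D : Subgroup GQ) (θ : GQ → K) (hD : IsClosed (D : Set GQ)) (hθ : ContinuousOn θ D)
    (co : ∀ g ∈ D, ∀ h ∈ D, d2 cy θ g h ∈ O) : ∃ θ' : GQ → K, ContinuousOn θ' D ∧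
    (∀ g ∈ D, ∀ h ∈ D, d2 cy θ' g h ∈ O) ∧ ∀ g ∈ D, pp * θ' g - θ g ∈ O := by
  classical
  have := G2.cpt
  obtain ⟨k, hk⟩ := bdd hD.isCompact hθ
  obtain ⟨e, e1, e2, e3⟩ := ex_e (k + 1)
  let A : AddSubgroup K := O.comap (AddMonoidHom.mulLeft ((pp : K) ^ (k + 1)))
  have mA : ∀ x, x ∈ A ↔ (pp : K) ^ (k + 1) * x ∈ O := fun _ => Iff.rfl
  have cA : ∀ c ∈ O, ∀ x ∈ A, c * x ∈ A := fun c hc x hx =>
    O_of (O_mul hc ((mA x).1 hx)) (mul_left_comm _ _ _)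
  have p0 := pk_ne
  have a1 : ∀ g ∈ D, (pp : K)⁻¹ * θ g ∈ A := fun g hg => (mA _).2 (O_of (hk g hg) (by
    rw [pow_succ]; field_simp))
  have a2 : ∀ g ∈ D, θ g ∈ A := fun g hg => by
    simpa [p0] using cA _ O_pp _ (a1 g hg)
  have a3 : ∀ x : K, pp * x ∈ O → x ∈ A := fun x h =>
    (mA _).2 (O_of (O_mul (O_pow k) h) (by ring))
  have e0 : e 0 = 1 := (e2 0 (zero_mem A)).2 (zero_mem _)
  have ne : ∀ x ∈ A, e x ≠ 0 := fun x hx => left_ne_zero_of_mul_eq_one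
    ((e1 _ _ hx (neg_mem hx)).symm.trans (by rw [add_neg_cancel, e0]))
  have ec : ∀ x ∈ A, ∀ y ∈ A, (e x = e y ↔ x - y ∈ O) := fun x hx y hy => by
    have h1 := e1 _ _ (sub_mem hx hy) hy
    rw [sub_add_cancel] at h1
    rw [← e2 _ (sub_mem hx hy), h1, mul_eq_right₀ (ne y hy)]
  have ep : ∀ x ∈ A, ∀ m : ℕ, e (m * x) = e x ^ m := fun x hx m => by
    induction m with
    | zero => simp [e0]
    | succ m ih =>
      rw [Nat.cast_succ, add_mul, one_mul,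
        e1 _ _ (cA _ (natCast_mem (PadicInt.subring pp) m) _ hx) hx, ih, pow_succ]
  have cc : ∀ f : GQ → K, (∀ g ∈ D, f g ∈ A) → ∀ g ∈ D, ∀ h ∈ D,
      (d2 cy f g h ∈ O ↔ e (f g) * g (e (f h)) = e (f (g * h))) := fun f hf g hg h hh => by
    rw [e3 g _ (hf h hh), ← e1 _ _ (hf g hg) (cA _ (O_cy g) _ (hf h hh)),
      ec _ (add_mem (hf g hg) (cA _ (O_cy g) _ (hf h hh))) _ (hf _ (mul_mem hg hh)),
      show d2 cy f g h = f g + cy g * f h - f (g * h) by rw [d2]; ring]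
  have t1 : θ 1 ∈ O := by simpa [d2] using co 1 D.one_mem 1 D.one_mem
  obtain ⟨W, hW, w⟩ := nb (D := D) (S := θ ⁻¹' O) (hθ 1 D.one_mem (O_open.mem_nhds t1))
  obtain ⟨b, hb⟩ := GW.Has.h90 hD (c := fun g => if m : g ∈ D then Units.mk0 _ (ne _ (a2 g m)) else 1)
    (fun g hg h hh => Units.ext (by
      simp only [dif_pos hg, dif_pos hh, dif_pos (mul_mem hg hh)]
      exact ((cc θ a2 g hg h hh).1 (co g hg h hh)).symm)) hW.opn fun g hg m => Units.ext (by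
      simp only [dif_pos hg]
      exact (e2 _ (a2 g hg)).2 (w g hg m))
  obtain ⟨y, hy⟩ := IsAlgClosed.exists_pow_nat_eq (b : Qb) pp_pos
  have y0 : y ≠ 0 := fun h => b.ne_zero (by rw [← hy, h, zero_pow pp_ne])
  have a4 : (pp : K)⁻¹ ∈ A := a3 _ (O_of O_one pk_inv)
  have pr : IsPrimitiveRoot (e (pp : K)⁻¹) pp := by
    have := IsPrimitiveRoot.orderOf (e (pp : K)⁻¹)
    rwa [orderOf_eq_prime (x := e (pp : K)⁻¹) (p := pp) (by
      rw [← ep _ a4, pk_inv, e2 _ (a3 _ (O_mul O_pp O_one))]; exact O_one)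
      fun h => half_not ((e2 _ a4).1 h)] at this
  have := NeZero.mk pp_ne
  let F : Qb → K := fun γ => if h : ∃ x : K, pp * x ∈ O ∧ e x * γ = y then h.choose else 0
  have hF : ∀ g ∈ D, pp * F (e ((pp : K)⁻¹ * θ g) * g y) ∈ O ∧
      e (F (e ((pp : K)⁻¹ * θ g) * g y)) * (e ((pp : K)⁻¹ * θ g) * g y) = y := fun g hg => by
    have h0 := mul_ne_zero (ne _ (a1 g hg)) ((map_ne_zero g).2 y0)
    have h1 := congrArg Units.val (hb g hg)
    simp only [dif_pos hg] at h1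
    obtain ⟨m, -, hm⟩ := pr.eq_pow_of_pow_eq_one (ξ := y / (e ((pp : K)⁻¹ * θ g) * g y)) (by
      rw [div_pow, mul_pow, ← map_pow, hy, ← ep _ (a1 g hg), mul_inv_cancel_left₀ p0,
        div_eq_one_iff_eq (by rw [show e (θ g) * g b = b from h1]; exact b.ne_zero)]
      exact h1.symm)
    have h2 : ∃ x : K, pp * x ∈ O ∧ e x * (e ((pp : K)⁻¹ * θ g) * g y) = y :=
      ⟨m * (pp : K)⁻¹, O_of (natCast_mem (PadicInt.subring pp) m) (by field_simp), by
        rw [ep _ a4, hm, div_mul_cancel₀ _ h0]⟩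
    simp only [F, dif_pos h2]
    exact h2.choose_spec
  let s : GQ → K := fun g => F (e ((pp : K)⁻¹ * θ g) * g y)
  have s2 : ∀ g ∈ D, e ((pp : K)⁻¹ * θ g + s g) * g y = y := fun g hg => by
    rw [e1 _ _ (a1 g hg) (a3 _ (hF g hg).1), mul_comm (e _), mul_assoc]
    exact (hF g hg).2
  have hc : Continuous fun g : D => (pp : K)⁻¹ * θ g :=
    continuous_const.mul (continuousOn_iff_continuous_restrict.1 hθ)
  refine ⟨fun g => (pp : K)⁻¹ * θ g + s g, (continuousOn_const.mul hθ).add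
    (continuousOn_iff_continuous_restrict.2 (IsLocallyConstant.continuous
      ((IsLocallyConstant.iff_eventually_eq _).2 fun g => ?_))), fun g hg h hh => ?_,
    fun g hg => O_of (hF g hg).1 (by simp only [s]; field_simp; ring)⟩
  · filter_upwards [(O_open.preimage (hc.sub (continuous_const
      (y := (pp : K)⁻¹ * θ g)))).eventually_mem (show g ∈ _ by simp),
      ((G2.stab_open y).preimage (f := fun j : D => (g : GQ)⁻¹ * j)
        (by fun_prop)).eventually_mem (show g ∈ _ by simp)] with j h1 h2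
    have h3 : j.1 y = g.1 y := by
      have := congrArg g.1 (show ((g : GQ)⁻¹ * j) y = y from h2)
      rwa [← AlgEquiv.mul_apply, mul_inv_cancel_left] at this
    show s j = s g
    simp only [s, h3, (ec _ (a1 j j.2) _ (a1 g g.2)).2 h1]
  · refine (cc _ (fun g hg => add_mem (a1 g hg) (a3 _ (hF g hg).1)) g hg h hh).2
      (mul_right_cancel₀ ((map_ne_zero (g * h)).2 y0) ?_)
    rw [s2 _ (mul_mem hg hh), AlgEquiv.mul_apply, mul_assoc, ← map_mul, s2 h hh, s2 g hg]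

theorem d2_mem (h : ∀ g ∈ D, θ g ∈ O) {g j : GQ} (hg : g ∈ D) (hj : j ∈ D) : d2 cy θ g j ∈ O :=
  add_mem (sub_mem (O_mul (O_cy g) (h j hj)) (h _ (mul_mem hg hj))) (h g hg)

theorem d2_cont (h : ContinuousOn θ D) :
    ContinuousOn (fun p : GQ × GQ => d2 cy θ p.1 p.2) ((D : Set GQ) ×ˢ (D : Set GQ)) :=
  (((cy_cont.comp continuous_fst).continuousOn.mul (h.comp continuousOn_snd fun _ m => m.2)).sub
    (h.comp (f := fun p : GQ × GQ => p.1 * p.2) (by fun_prop) fun _ m => mul_mem m.1 m.2)).add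
    (h.comp continuousOn_fst fun _ m => m.1)

theorem z2_mul {c : K} (hc : c ∈ O) (h : Z2 cy D z) : Z2 cy D fun g j => c * z g j :=
  ⟨continuousOn_const.mul h.cont, fun g hg j hj k hk =>
    O_of (O_mul hc (h.coc g hg j hj k hk)) (by simp only [d3]; ring)⟩

theorem z2_two (h : Z2 cy D z) : Z2 cy D fun g j => 2 * z g j := z2_mul O_two h

theorem z2_sub (h : Z2 cy D z) (hθ : ContinuousOn θ D) : Z2 cy D fun g j => z g j - d2 cy θ g j :=
  ⟨h.cont.sub (d2_cont hθ), fun g hg j hj k hk =>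
    O_of (h.coc g hg j hj k hk) (by simp only [d3, d2, map_mul, mul_assoc]; ring)⟩

theorem b2_mul {c : K} (hc : c ∈ O) (h : B2 cy D z) : B2 cy D fun g j => c * z g j := by
  obtain ⟨φ, h1, h2⟩ := h
  exact ⟨fun g => c * φ g, continuousOn_const.mul h1, fun g hg j hj =>
    O_of (O_mul hc (h2 g hg j hj)) (by simp only [d2]; ring)⟩

theorem b2_two (h : B2 cy D z) : B2 cy D fun g j => 2 * z g j := b2_mul O_two h

theorem b2_sub (h : B2 cy D z) (hθ : ContinuousOn θ D) : B2 cy D fun g j => z g j - d2 cy θ g j := by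
  obtain ⟨φ, h1, h2⟩ := h
  exact ⟨fun g => φ g - θ g, h1.sub hθ, fun g hg j hj =>
    O_of (h2 g hg j hj) (by simp only [d2]; ring)⟩

theorem rz_d2 (h : ∀ g ∈ D, pp * θ g ∈ O) {g j : GQ} (hg : g ∈ D) (hj : j ∈ D) :
    pp * d2 cy θ g j ∈ O ∧ rz (d2 cy θ g j) = ω g * rz (θ j) - rz (θ (g * j)) + rz (θ g) := by
  have h1 := hf_cy g (h j hj)
  have h2 := h _ (mul_mem hg hj)
  rw [d2, rz_add (hf_sub h1 h2) (h g hg), rz_sub h1 h2, rz_cy g (h j hj)]
  exact ⟨hf_add (hf_sub h1 h2) (h g hg), rfl⟩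

theorem lc1 (h : ContinuousOn θ D) : IsLocallyConstant fun x : D => rz (θ x) :=
  rz_lc.comp_continuous (continuousOn_iff_continuous_restrict.1 h)

theorem toZ (hD : IsClosed (D : Set GQ)) (h : Z2 cy D z) (hf : ∀ g ∈ D, ∀ j ∈ D, pp * z g j ∈ O) :
    (fun g j => rz (z g j)) ∈ G2.Z2 ∅ D (G2.ch ω) := by
  refine ⟨fun g hg j hj k hk => ?_, G2.c2_of_lc hD (rz_lc.comp_continuous
    (h.cont.comp_continuous (f := fun x : D × D => ((x.1 : GQ), (x.2 : GQ))) (by fun_prop)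
      fun x => ⟨x.1.2, x.2.2⟩))⟩
  have h0 := rz_zero.2 (h.coc g hg j hj k hk)
  have h1 := hf_cy g (hf j hj k hk)
  have h2 := hf _ (mul_mem hg hj) k hk
  have h3 := hf g hg _ (mul_mem hj hk)
  rw [d3, rz_sub (hf_add (hf_sub h1 h2) h3) (hf g hg j hj), rz_add (hf_sub h1 h2) h3, rz_sub h1 h2,
    rz_cy g (hf j hj k hk)] at h0
  simp only [G2.ch_apply]
  linear_combination h0

theorem toB (hD : IsClosed (D : Set GQ)) (h : B2 cy D z) (hf : ∀ g ∈ D, ∀ j ∈ D, pp * z g j ∈ O) :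
    (fun g j => rz (z g j)) ∈ G2.B2 ∅ D (G2.ch ω) := by
  obtain ⟨φ, h1, h2⟩ := h
  obtain ⟨ψ, k1, k2, k3⟩ := div D (fun g => pp * φ g) hD (continuousOn_const.mul h1)
    fun g hg j hj => O_of (sub_mem (hf g hg j hj) (O_mul O_pp (h2 g hg j hj)))
      (by simp only [d2]; ring)
  have k4 : ∀ g ∈ D, pp * (φ g - ψ g) ∈ O := fun g hg => O_of (neg_mem (k3 g hg)) (by ring)
  refine ⟨fun g => rz (φ g - ψ g), G2.c1_of_lc hD (lc1 (h1.sub k1)), fun g hg j hj => ?_⟩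
  rw [G2.d1_apply, G2.ch_apply, ← (rz_d2 k4 hg hj).2]
  exact rz_congr (O_of (add_mem (h2 g hg j hj) (k2 g hg j hj)) (by simp only [d2]; ring))

theorem ofB (hf : ∀ g ∈ D, ∀ j ∈ D, pp * z g j ∈ O) {a : GQ → ZMod pp}
    (ha : a ∈ G2.C1 (ZMod pp) (ZMod pp) ∅ D)
    (e : ∀ g ∈ D, ∀ j ∈ D, rz (z g j) = ω g * a j - a (g * j) + a g) :
    ContinuousOn (fun g => sz (a g)) D ∧
      ∀ g ∈ D, ∀ j ∈ D, z g j - d2 cy (fun g => sz (a g)) g j ∈ O := by
  refine ⟨continuousOn_iff_continuous_restrict.2 ((G2.C1.lc ha).comp sz).continuous,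
    fun g hg j hj => ?_⟩
  have := rz_d2 (θ := fun g => sz (a g)) (fun g _ => sz_hf _) hg hj
  exact rz_inj (hf g hg j hj) this.1 (by rw [this.2, e g hg j hj, rz_sz, rz_sz, rz_sz])

/-- invariance modulo `O` -/
def Iv (D N : Subgroup GQ) (z : GQ → GQ → K) : Prop :=
  ∀ g ∈ D, ∀ h ∈ D, ∀ i ∈ N, z (g * i) h - z g h ∈ O ∧ z g (h * i) - z g h ∈ O

/-- invariant trivialisations -/
def Tv (D N : Subgroup GQ) (z : GQ → GQ → K) : Prop := ∃ θ : GQ → K, ContinuousOn θ D ∧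
  (∀ g ∈ D, ∀ i ∈ N, θ (g * i) - θ g ∈ O) ∧ ∀ g ∈ D, ∀ h ∈ D, z g h - d2 cy θ g h ∈ O

/-- induction on the exponent -/
theorem ind {N : Subgroup GQ} (hD : IsClosed (D : Set GQ))
    (nrm : ∀ g ∈ D, ∀ i ∈ N, g⁻¹ * i * g ∈ N) (cN : ∀ i ∈ N, cy i = 1)
    (Q : (GQ → GQ → K) → Prop) (q2 : ∀ z, Q z → Q fun g h => pp * z g h)
    (qd : ∀ z θ, Q z → ContinuousOn θ D → Q fun g h => z g h - d2 cy θ g h)
    (base : ∀ z, Z2 cy D z → (∀ g ∈ D, ∀ h ∈ D, pp * z g h ∈ O) → Iv D N z → Q z → Tv D N z)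
    (hz : Z2 cy D z) (hi : Iv D N z) (hq : Q z) : Tv D N z := by
  have := G2.cpt
  have p0 := pk_ne
  obtain ⟨k, hk⟩ := bdd (hD.isCompact.prod hD.isCompact) hz.cont
  induction k generalizing z with
  | zero => exact ⟨0, continuousOn_const, fun _ _ _ _ => by simp, fun g hg h hh => by
      simpa [d2] using hk (g, h) ⟨hg, hh⟩⟩
  | succ k ih =>
    obtain ⟨η, h1, h2, h3⟩ := ih (z2_mul O_pp hz) (fun g hg h hh i m =>
      (hi g hg h hh i m).imp (fun e => O_of (O_mul O_pp e) (by ring))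
        fun e => O_of (O_mul O_pp e) (by ring)) (q2 z hq)
      fun x hx => O_of (hk x hx) (by ring)
    have c1 : ContinuousOn (fun g => (pp : K)⁻¹ * fr (η g)) D :=
      continuousOn_const.mul (fr_cont.comp_continuousOn h1)
    have c2 : ∀ g ∈ D, ∀ i ∈ N, fr (η (g * i)) = fr (η g) := fun g hg i m => fr_congr (h2 g hg i m)
    obtain ⟨θ, k1, k2, k3⟩ := base _ (z2_sub hz c1) (fun g hg h hh =>
      O_of (add_mem (h3 g hg h hh) (d2_mem (θ := fun g => η g - fr (η g))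
        (fun g _ => fr_sub _) hg hh)) (by simp only [d2]; field_simp; ring))
      (fun g hg h hh i m => (hi g hg h hh i m).imp (fun e => O_of e (by
        simp only [d2]
        rw [map_mul, cN i m, c2 g hg i m, show g * i * h = g * h * (h⁻¹ * i * h) by group,
          c2 _ (mul_mem hg hh) _ (nrm h hh i m)]
        ring)) fun e => O_of e (by
        simp only [d2]
        rw [c2 h hh i m, ← mul_assoc g, c2 _ (mul_mem hg hh) i m]
        ring)) (qd z _ hq c1)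
    exact ⟨fun g => θ g + (pp : K)⁻¹ * fr (η g), k1.add c1, fun g hg i m => O_of (k2 g hg i m) (by
      simp only [c2 g hg i m]; ring), fun g hg h hh => O_of (k3 g hg h hh) (by
      simp only [d2]; ring)⟩

/-- the real place is trivial -/
theorem b2_inf {w : InfinitePlace Qb} (hz : Z2 cy (G2.St (G2.ip w)) z) :
    B2 cy (G2.St (G2.ip w)) z := by
  obtain ⟨c, -, cc, h, -⟩ := G2.ex_cc w
  have a := (h 1).2 (.inl rfl)
  have b := (h c).2 (.inr rfl)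
  have t : ∀ j ∈ G2.St (G2.ip w), ContinuousOn (fun g => z g j) (G2.St (G2.ip w)) := fun j hj =>
    hz.cont.comp (f := fun g : GQ => (g, j)) (by fun_prop) fun g hg => ⟨hg, hj⟩
  refine ⟨fun g => 2⁻¹ * (z g 1 + z g c), continuousOn_const.mul ((t 1 a).add (t c b)),
    fun g hg j hj => O_dbl (O_of (neg_mem (add_mem (hz.coc g hg j hj 1 a) (hz.coc g hg j hj c b)))
      ?_)⟩
  rcases (h j).1 hj with rfl | rfl <;> simp only [d2, d3, mul_one, one_mul, cc] <;> ring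

theorem loc_all {w : GQ → GQ → ZMod pp} (hw : w ∈ G2.Z2 ∅ ⊤ (G2.ch ω)) {v : ℕ} {y x : G2.Plc}
    (hy : y ∈ G2.Ab {v}) (h : w ∈ G2.B2 ∅ (G2.St y) (G2.ch ω)) (hx : x ∈ G2.Ab {v}) :
    w ∈ G2.B2 ∅ (⊤ ⊓ G2.St x) (G2.ch ω) := by
  obtain ⟨g, rfl⟩ := G2.Plc.ab_trans hy hx
  refine G2.cj2 _ _ _ _ ⊤ _ _ _ w g (G2.rp_om _ _) hw trivial le_top (fun s => ?_) h
  rw [top_inf_eq, MulAction.mem_stabilizer_iff, MulAction.mem_stabilizer_iff, mul_smul,
    inv_smul_smul, mul_smul, smul_left_cancel_iff]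

/-- a class of level one which is trivial at a prime above `l` is trivial at all of them -/
theorem loc_z (hz : Z2 cy ⊤ z) (hf : ∀ g h, pp * z g h ∈ O) {x : G2.Plc} (hx : x ∈ G2.Ab Set.univ)
    (h : ∀ l P, Ov l P → x = G2.fp P → ∃ Q, Ov l Q ∧ B2 cy (dec Q) z) :
    (fun g j => rz (z g j)) ∈ G2.B2 ∅ (⊤ ⊓ G2.St x) (G2.ch ω) := by
  rcases hx with ⟨l, -, P, o, rfl⟩ | ⟨-, w, rfl⟩
  · obtain ⟨Q, q, b⟩ := h l P o rfl
    exact loc_all (toZ isClosed_univ hz fun g _ j _ => hf g j) (G2.mem_ab_fp.2 ⟨l, rfl, q⟩)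
      ((G2.st_fp Q).symm ▸ toB (G2.dec_closed Q) b fun g _ j _ => hf g j)
      (G2.mem_ab_fp.2 ⟨l, rfl, o⟩)
  · rw [top_inf_eq]
    exact toB (G2.st_closed _) (b2_inf ⟨hz.cont.mono (Set.prod_mono le_top le_top),
      fun g _ j _ k _ => hz.coc g trivial j trivial k trivial⟩) fun g _ j _ => hf g j

theorem has0 (hz : Z2 cy ⊤ z) (hf : ∀ g h, pp * z g h ∈ O)
    (h : ∀ l : ℕ, l.Prime → ∃ Q, Ov l Q ∧ B2 cy (dec Q) z) :
    ∃ η : GQ → K, Continuous η ∧ (∀ g, pp * η g ∈ O) ∧ ∀ g h, z g h - d2 cy η g h ∈ O := by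
  have h1 := toZ isClosed_univ hz fun g _ j _ => hf g j
  have hr := G2.rp_om (p := pp) (ZMod pp) ⊤
  have e1 : ∀ g ∈ G2.Gz pp, G2.ch ω g = G2.tp pp g := fun g hg => G2.ch_om _ hg
  obtain ⟨a, ha, e⟩ := G2.tr2 GQ _ _ ∅ ⊤ (G2.Gz pp) _ _ hr (G2.pr0 GQ _ _ ∅ _ _ _ hr (by
    rw [Ne, ZMod.natCast_eq_zero_iff, Subgroup.relIndex_top_right]; exact G2.Gz_index))
    (G2.le_of_open G2.Gz_open _) h1 (by
      rw [top_inf_eq]
      exact G2.B2.congr (rowH _ _ G2.Gz_open le_rfl (G2.Z2.congr (G2.Z2.mono h1 subset_rfl le_top)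
        (fun _ _ _ _ => rfl) fun g hg => (e1 g hg).symm) fun x hx => G2.B2.congr (G2.B2.mono
          (loc_z hz hf hx fun l P o _ => h l o.1) subset_rfl (inf_le_inf_right _ le_top))
          (fun _ _ _ _ => rfl) fun g hg => (e1 g hg.1).symm) (fun _ _ _ _ => rfl) e1)
  obtain ⟨k1, k2⟩ := ofB (fun g _ j _ => hf g j) ha e
  exact ⟨_, continuousOn_univ.1 k1, fun _ => sz_hf _, fun g j => k2 g trivial j trivial⟩

/-- **the local global principle** -/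
theorem has1 (hz : Z2 cy ⊤ z) (h : ∀ l : ℕ, l.Prime → ∃ Q, Ov l Q ∧ B2 cy (dec Q) z) :
    ∃ η : GQ → K, Continuous η ∧ ∀ g h, z g h - d2 cy η g h ∈ O := by
  have b : ∀ i ∈ (⊥ : Subgroup GQ), i = 1 := fun _ => Subgroup.mem_bot.1
  obtain ⟨η, h1, -, h2⟩ := ind (N := ⊥) isClosed_univ (fun g _ i m => by simp [b i m])
    (fun i m => by rw [b i m, map_one]) (fun z => ∀ l : ℕ, l.Prime → ∃ Q, Ov l Q ∧ B2 cy (dec Q) z)
    (fun z h v hv => (h v hv).imp fun _ a => ⟨a.1, b2_mul O_pp a.2⟩)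
    (fun z θ h hθ v hv => (h v hv).imp fun _ a => ⟨a.1, b2_sub a.2 (hθ.mono (Set.subset_univ _))⟩)
    (fun z hz hf _ h => by
      obtain ⟨η, k1, -, k2⟩ := has0 hz (fun g j => hf g trivial j trivial) h
      exact ⟨η, k1.continuousOn, fun g _ i m => by simp [b i m], fun g _ j _ => k2 g j⟩)
    hz (fun g _ j _ i m => by simp [b i m]) h
  exact ⟨η, continuousOn_univ.1 h1, fun g j => h2 g trivial j trivial⟩

theorem ch_of (hD : IsClosed (D : Set GQ)) (h : ContinuousOn θ D) (hf : ∀ g ∈ D, pp * θ g ∈ O)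
    (ad : ∀ g ∈ D, ∀ j ∈ D, θ (g * j) - θ g - θ j ∈ O) : G2.Ch D fun g => rz (θ g) :=
  (G2.ch_iff hD).1 ⟨lc1 h, fun x y => by
    rw [← rz_add (hf x x.2) (hf y y.2)]
    exact rz_congr (O_of (ad x x.2 y y.2) (by simp only [Subgroup.coe_mul]; ring))⟩

/-- **reciprocity** for a class which is trivial outside one tame place of degree one -/
theorem rcp {q : ℕ} {P : Ideal (𝓞 Qb)} {φ : GQ} (o : Ov q P) (ne : q ≠ pp) (fb : Fb q P φ)
    (le : dec P ≤ G2.Gz pp) (hz : Z2 cy ⊤ z) {ψ : GQ → ZMod pp} (hψ : G2.Ch (dec P) ψ)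
    (ram : ∃ i ∈ inP P, ψ i ≠ 0) (c : ContinuousOn θ (dec P)) (hf : ∀ g ∈ dec P, pp * θ g ∈ O)
    (ad : ∀ g ∈ dec P, ∀ j ∈ dec P, θ (g * j) - θ g - θ j ∈ O) (ur : ∀ i ∈ inP P, θ i ∈ O)
    (b : B2 cy (dec P) fun g j => z g j - (ψ g).val * θ j)
    (h : ∀ l : ℕ, l.Prime → l ≠ q → ∃ Q, Ov l Q ∧ B2 cy (dec Q) z) : θ φ ∈ O := by
  have p0 := pk_ne
  have on : ∀ m : ℕ, (m : K) ∈ O := natCast_mem (PadicInt.subring pp)
  obtain ⟨η, e1, e2⟩ := has1 (z2_mul O_pp hz) fun l hl => by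
    by_cases m : l = q
    · obtain ⟨f, f1, f2⟩ := b2_mul O_pp b
      exact ⟨P, m ▸ o, f, f1, fun g hg j hj => O_of (add_mem (f2 g hg j hj)
        (hf_mul (on (ψ g).val) (hf j hj))) (by ring)⟩
    · exact (h l hl m).imp fun _ a => ⟨a.1, b2_mul O_pp a.2⟩
  have c1 : ∀ A : Subgroup GQ, ContinuousOn (fun g => (pp : K)⁻¹ * η g) A := fun A =>
    (continuous_const.mul e1).continuousOn
  have hw : ∀ g j, pp * (z g j - d2 cy (fun g => (pp : K)⁻¹ * η g) g j) ∈ O := fun g j =>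
    O_of (e2 g j) (by simp only [d2]; field_simp)
  have cl := G2.dec_closed P
  have u1 := ch_of cl c hf ad
  obtain ⟨n, hn⟩ := (G2.tam pp q P o ne).2.2 (ZMod pp) _ ψ
    (fun g j hg hj => hψ.1 g (inP_le_dec hg) j (inP_le_dec hj))
    (hψ.2.imp fun W hW => ⟨hW.1, fun w m hw => hW.2 w (inP_le_dec hw) m⟩)
  have key := rowO (ZMod pp) ⊤ (fun g j => rz (z g j - d2 cy (fun g => (pp : K)⁻¹ * η g) g j)) Unit
    (fun _ => q) (fun _ => P) (fun _ => φ) (fun _ g => rz (θ g)) (fun _ => -ψ) (fun _ => -n)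
    isOpen_univ (toZ isClosed_univ (z2_sub hz (c1 ⊤)) fun g _ j _ => hw g j)
    (fun _ => ⟨o, ne, fb, le_inf le_top le⟩) (fun _ _ _ _ _ => rfl) (fun _ => ⟨u1, hψ.neg,
      fun g hg => ⟨rz_zero.2 (ur g hg), by rw [Pi.neg_apply, hn g hg, smul_eq_mul, mul_neg]⟩, ?_⟩)
    fun x hx m => loc_z (z2_sub hz (c1 ⊤)) hw hx fun l Q r e => (h l r.1 fun k => ?_).imp
      fun _ a => ⟨a.1, b2_sub a.2 (c1 _)⟩
  · obtain ⟨i, i1, i2⟩ := ram
    rw [Finset.univ_unique, Finset.sum_singleton, mul_neg, neg_eq_zero, mul_eq_zero] at key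
    exact rz_zero.1 (key.resolve_right fun e => i2 (by rw [hn i i1, e, smul_zero]))
  · have k : ∀ g, ∀ j ∈ dec P, pp * ((ψ g).val * θ j) ∈ O := fun g j hj => hf_mul (on _) (hf j hj)
    have b1 := toB cl (b2_sub b (c1 _)) fun g _ j hj => O_of (hf_sub (hw g j) (k g j hj)) (by ring)
    refine G2.B2.congr (add_mem (G2.B2.congr b1 (fun _ _ _ _ => rfl)
      fun g hg => (G2.ch_om _ (le hg)).symm) (G2.cup_skew u1 hψ)) (fun g _ j hj => ?_) fun _ _ => rfl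
    simp only [Pi.sub_apply, Pi.add_apply, Pi.neg_apply, G2.cup]
    rw [sub_right_comm (z g j), rz_sub (hw g j) (k g j hj), rz_nat _ (hf j hj),
      ZMod.natCast_zmod_val]
    ring
  · obtain ⟨g, a⟩ := GW.Pl.ov_trans o (k ▸ r)
    exact m () g trivial (by rw [e, ← a, G2.smul_fp])

end Vale.Agent.P014U.X4S.Aq
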