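import Vale.Agent.P014U.X4S.A.Defs
import Vale.Agent.P004S.A.Div

/-! # P014U: integers, classes of level one, the exponential (helper42) -/

set_option linter.all false

noncomputable section

namespace Vale.Agent.P014U.X4S.Aq

open NumberField Topology Filter
open Vale.Agent.P022 Vale.Agent.P022K
open Vale.Agent.P014U.X4S.Ga (K O mem_O d2 d3 Z2 B2)

variable [Pp]

theorem O_open : IsOpen (O : Set K) := by
  have : (O : Set K) = Metric.closedBall 0 1 := by
    ext x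
    rw [mem_closedBall_zero_iff]
    exact mem_O
  rw [this]
  exact IsUltrametricDist.isOpen_closedBall _ one_ne_zero

theorem O_mul {x y : K} (hx : x ∈ O) (hy : y ∈ O) : x * y ∈ O :=
  (PadicInt.subring pp).mul_mem hx hy

theorem O_one : (1 : K) ∈ O := (PadicInt.subring pp).one_mem

theorem O_of {x y : K} (hx : x ∈ O) (e : y = x) : y ∈ O := e ▸ hx

theorem O_ex {x : K} (h : x ∈ O) : ∃ a : ℤ_[pp], (a : K) = x := ⟨⟨x, h⟩, rfl⟩

theorem O_two : (2 : K) ∈ O := O_of (add_mem O_one O_one) (by norm_num)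

theorem O_pp : (pp : K) ∈ O := natCast_mem (PadicInt.subring pp) pp

theorem O_pow (n : ℕ) : (pp : K) ^ n ∈ O := (PadicInt.subring pp).pow_mem O_pp n

theorem O_cy (g : GQ) : cy g ∈ O := (cy_norm g).le

theorem O_half : (2⁻¹ : K) ∈ O := by rw [mem_O, norm_inv, norm_two, inv_one]

theorem O_dbl {x : K} (h : 2 * x ∈ O) : x ∈ O := O_of (O_mul O_half h) (by ring)

theorem pk_ne : (pp : K) ≠ 0 := Nat.cast_ne_zero.2 pp_ne

theorem pr_one : (1 : ℝ) < pp := by exact_mod_cast one_lt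

theorem half_not : ((pp : K)⁻¹) ∉ O := by
  rw [mem_O, norm_inv, Padic.norm_p, inv_inv, not_le]
  exact pr_one

theorem dv_iff (n : ℕ) (a : ℤ_[pp]) : PadicInt.toZModPow n a = 0 ↔ ((pp : K) ^ n)⁻¹ * a ∈ O := by
  rw [← RingHom.mem_ker, PadicInt.ker_toZModPow, Ideal.mem_span_singleton]
  have h0 : (pp : K) ^ n ≠ 0 := pow_ne_zero _ pk_ne
  constructor
  · rintro ⟨c, rfl⟩
    rw [PadicInt.coe_mul, PadicInt.coe_pow, PadicInt.coe_natCast, inv_mul_cancel_left₀ h0]
    exact c.2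
  · intro h
    obtain ⟨c, hc⟩ := O_ex h
    refine ⟨c, PadicInt.ext ?_⟩
    rw [PadicInt.coe_mul, PadicInt.coe_pow, PadicInt.coe_natCast, hc, mul_inv_cancel_left₀ h0]

theorem dv_one (a : ℤ_[pp]) : PadicInt.toZMod a = 0 ↔ (pp : K)⁻¹ * a ∈ O := by
  rw [← RingHom.mem_ker, PadicInt.ker_toZMod, PadicInt.maximalIdeal_eq_span_p,
    ← pow_one (pp : ℤ_[pp]), ← PadicInt.ker_toZModPow, RingHom.mem_ker, dv_iff, pow_one]

theorem lc_of {Y : Type} (r : K → Y) (h : ∀ x y, x - y ∈ O → r x = r y) : IsLocallyConstant r :=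
  (IsLocallyConstant.iff_eventually_eq _).2 fun y =>
    ((O_open.preimage (f := fun x => x - y) (by fun_prop)).eventually_mem (by simp)).mono
      fun x hx => h x y hx

open Classical in
/-- the class of an element of level one -/
def rz (x : K) : ZMod pp := if h : pp * x ∈ O then PadicInt.toZMod (p := pp) ⟨_, h⟩ else 1

/-- a section -/
def sz (a : ZMod pp) : K := (pp : K)⁻¹ * a.val

theorem rz_eq {x : K} {a : ℤ_[pp]} (h : (a : K) = pp * x) : rz x = PadicInt.toZMod a := by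
  have m : pp * x ∈ O := h ▸ a.2
  rw [rz, dif_pos m]
  exact congrArg _ (Subtype.ext h.symm)

theorem rz_zero {x : K} : rz x = 0 ↔ x ∈ O := by
  by_cases h : pp * x ∈ O
  · obtain ⟨a, e⟩ := O_ex h
    rw [rz_eq e, dv_one, e, inv_mul_cancel_left₀ pk_ne]
  · rw [rz, dif_neg h]
    exact iff_of_false one_ne_zero fun m => h (O_mul O_pp m)

theorem hf_add {x y : K} (hx : pp * x ∈ O) (hy : pp * y ∈ O) : pp * (x + y) ∈ O :=
  O_of (add_mem hx hy) (by ring)

theorem hf_sub {x y : K} (hx : pp * x ∈ O) (hy : pp * y ∈ O) : pp * (x - y) ∈ O :=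
  O_of (sub_mem hx hy) (by ring)

theorem hf_mul {c x : K} (hc : c ∈ O) (hx : pp * x ∈ O) : pp * (c * x) ∈ O :=
  O_of (O_mul hc hx) (by ring)

theorem hf_cy (g : GQ) {x : K} (hx : pp * x ∈ O) : pp * (cy g * x) ∈ O := hf_mul (O_cy g) hx

theorem rz_add {x y : K} (hx : pp * x ∈ O) (hy : pp * y ∈ O) : rz (x + y) = rz x + rz y := by
  obtain ⟨a, e⟩ := O_ex hx
  obtain ⟨b, f⟩ := O_ex hy
  rw [rz_eq e, rz_eq f, rz_eq (a := a + b) (by rw [PadicInt.coe_add, e, f, mul_add]), map_add]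

theorem rz_mul (c : ℤ_[pp]) {x : K} (hx : pp * x ∈ O) :
    rz (c * x) = PadicInt.toZMod c * rz x := by
  obtain ⟨a, e⟩ := O_ex hx
  rw [rz_eq e, rz_eq (a := c * a) (by rw [PadicInt.coe_mul, e, mul_left_comm]), map_mul]

theorem rz_nat (m : ℕ) {x : K} (hx : pp * x ∈ O) : rz (m * x) = m * rz x := by
  simpa using rz_mul m hx

theorem rz_congr {x y : K} (h : x - y ∈ O) : rz x = rz y := by
  by_cases hy : pp * y ∈ O
  · rw [← sub_add_cancel x y, rz_add (O_mul O_pp h) hy, rz_zero.2 h, zero_add]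
  · rw [rz, rz, dif_neg hy, dif_neg fun m => hy (O_of (sub_mem m (O_mul O_pp h)) (by ring))]

theorem rz_lc : IsLocallyConstant rz := lc_of rz fun _ _ => rz_congr

theorem sz_mul (a : ZMod pp) : pp * sz a = a.val := mul_inv_cancel_left₀ pk_ne _

theorem sz_hf (a : ZMod pp) : pp * sz a ∈ O :=
  O_of (natCast_mem (PadicInt.subring pp) a.val) (sz_mul a)

theorem rz_sz (a : ZMod pp) : rz (sz a) = a := by
  rw [rz_eq (a := a.val) (by rw [sz_mul, PadicInt.coe_natCast]), map_natCast, ZMod.natCast_zmod_val]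

theorem rz_half : rz (pp : K)⁻¹ = 1 := by
  rw [rz_eq (a := 1) (by rw [mul_inv_cancel₀ pk_ne, PadicInt.coe_one]), map_one]

theorem rz_sub {x y : K} (hx : pp * x ∈ O) (hy : pp * y ∈ O) : rz (x - y) = rz x - rz y := by
  rw [eq_sub_iff_add_eq, ← rz_add (hf_sub hx hy) hy, sub_add_cancel]

theorem rz_cy (g : GQ) {x : K} (hx : pp * x ∈ O) : rz (cy g * x) = ω g * rz x := by
  rw [cy_apply, rz_mul _ hx, cz_om]

theorem rz_inj {x y : K} (hx : pp * x ∈ O) (hy : pp * y ∈ O) (h : rz x = rz y) : x - y ∈ O :=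
  rz_zero.1 (by rw [rz_sub hx hy, h, sub_self])

theorem rz_sum {ι : Type} (s : Finset ι) (f : ι → K) (h : ∀ i ∈ s, pp * f i ∈ O) :
    pp * ∑ i ∈ s, f i ∈ O ∧ rz (∑ i ∈ s, f i) = ∑ i ∈ s, rz (f i) := by
  classical
  induction s using Finset.induction_on with
  | empty => simpa using rz_zero.2 (zero_mem _)
  | insert a s ha ih =>
    have h1 := h a (Finset.mem_insert_self _ _)
    have h2 := ih fun i hi => h i (Finset.mem_insert_of_mem hi)
    rw [Finset.sum_insert ha, Finset.sum_insert ha, rz_add h1 h2.1, h2.2]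
    exact ⟨hf_add h1 h2.1, rfl⟩

/-- representatives modulo `O` -/
def fr (x : K) : K := (QuotientAddGroup.mk x : K ⧸ O).out

theorem fr_sub (x : K) : x - fr x ∈ O := by
  have := QuotientAddGroup.eq.1 (QuotientAddGroup.out_eq' (QuotientAddGroup.mk x : K ⧸ O))
  rwa [neg_add_eq_sub] at this

theorem fr_congr {x y : K} (h : x - y ∈ O) : fr x = fr y := by
  rw [fr, fr, (QuotientAddGroup.eq (a := y) (b := x)).2 (by rwa [neg_add_eq_sub])]

theorem fr_cont : Continuous fr := (lc_of fr fun _ _ => fr_congr).continuous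

theorem bdd {X : Type} [TopologicalSpace X] {S : Set X} (hS : IsCompact S) {f : X → K}
    (hf : ContinuousOn f S) : ∃ k : ℕ, ∀ x ∈ S, pp ^ k * f x ∈ O := by
  obtain ⟨C, hC⟩ := hS.exists_bound_of_continuousOn hf
  obtain ⟨k, hk⟩ := pow_unbounded_of_one_lt C pr_one
  refine ⟨k, fun x hx => ?_⟩
  rw [mem_O, norm_mul, norm_pow, Padic.norm_p, inv_pow,
    inv_mul_le_iff₀ (pow_pos (one_pos.trans pr_one) k), mul_one]
  exact (hC x hx).trans hk.le

/-- the exponential at a finite level -/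
theorem ex_e (n : ℕ) : ∃ e : K → Qb,
    (∀ x y, (pp : K) ^ n * x ∈ O → (pp : K) ^ n * y ∈ O → e (x + y) = e x * e y) ∧
    (∀ x, (pp : K) ^ n * x ∈ O → (e x = 1 ↔ x ∈ O)) ∧
    ∀ g x, (pp : K) ^ n * x ∈ O → g (e x) = e (cy g * x) := by
  classical
  obtain ⟨ζ, hζ⟩ := ex_prim n
  have : NeZero (pp ^ n) := ⟨(pw_pos n).ne'⟩
  let ψ := AddChar.zmodChar (pp ^ n) hζ.pow_eq_one
  let t := PadicInt.toZModPow (p := pp) n
  let e : K → Qb := fun x => if h : (pp : K) ^ n * x ∈ O then ψ (t ⟨_, h⟩) else 1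
  have he : ∀ x (a : ℤ_[pp]), (a : K) = (pp : K) ^ n * x → e x = ψ (t a) := fun x a h => by
    have m : (pp : K) ^ n * x ∈ O := h ▸ a.2
    simp only [e, dif_pos m]
    congr 2
    exact Subtype.ext h.symm
  refine ⟨e, fun x y hx hy => ?_, fun x hx => ?_, fun g x hx => ?_⟩ <;> obtain ⟨a, ha⟩ := O_ex hx
  · obtain ⟨b, hb⟩ := O_ex hy
    rw [he x a ha, he y b hb, he _ (a + b) (by rw [PadicInt.coe_add, ha, hb, mul_add]), map_add,
      AddChar.map_add_eq_mul]
  · rw [he x a ha, (AddChar.zmodChar_primitive_of_primitive_root _ hζ).zmod_char_eq_one_iff,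
      dv_iff, ha, inv_mul_cancel_left₀ (pow_ne_zero _ pk_ne)]
  · rw [he x a ha, he _ (cz g * a) (by rw [PadicInt.coe_mul, ha, cy_apply, mul_left_comm]), map_mul,
      cz_spec g (n := n) (by
        rw [← AddChar.map_nsmul_eq_pow, nsmul_eq_mul, ZMod.natCast_self, zero_mul,
          AddChar.map_zero_eq_one]),
      ← AddChar.map_nsmul_eq_pow, nsmul_eq_mul, ZMod.natCast_zmod_val]

end Vale.Agent.P014U.X4S.Aq
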